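import Mathlib

/-! Part III of P153: abstract spectral argument. Definitions. -/

namespace Vale.P153.Spec

open scoped BigOperators

/-- Position in the plane of the lattice point `i + j ω`, `ω = e^{iπ/3}`. -/
noncomputable def pos (x : ℤ × ℤ) : ℂ := ⟨(x.1 : ℝ) + (x.2 : ℝ) / 2, (x.2 : ℝ) * √3 / 2⟩

/-- Reflection in the real axis in lattice coordinates. -/
def R0 (x : ℤ × ℤ) : ℤ × ℤ := (x.1 + x.2, -x.2)

/-- Rectangular lattice Laplacian on the even rows (zero on odd rows). -/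
noncomputable def lap (f : ℤ × ℤ → ℝ) (x : ℤ × ℤ) : ℝ :=
  if Even x.2 then
    (f (x.1 - 1, x.2 + 2) + f (x.1 + 1, x.2 - 2) - 2 * f x) / 3 +
      (f (x.1 + 1, x.2) + f (x.1 - 1, x.2) - 2 * f x)
  else 0

/-- Abstract input: a symmetric, sublinear, reflection positive variance function. -/
structure RPData (V : ℤ × ℤ → ℝ) : Prop where
  zero : V (0, 0) = 0
  rot : ∀ i j : ℤ, V (-j, i + j) = V (i, j)
  refl : ∀ i j : ℤ, V (i + j, -j) = V (i, j)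
  growth : ∀ ε : ℝ, 0 < ε → ∃ C : ℝ, ∀ i j : ℤ, |V (i, j)| ≤ C + ε * (|(i : ℝ)| + |(j : ℝ)|)
  rp : ∀ (S : Finset (ℤ × ℤ)) (a : ℤ × ℤ → ℝ), (∀ x ∈ S, 0 ≤ x.2) → ∑ x ∈ S, a x = 0 →
    ∑ x ∈ S, ∑ y ∈ S, a x * a y * V (x - R0 y) ≤ 0

/-- The same data on the rectangular sublattice, `W (s,t) = V` at position `(s, t √3)`. -/
structure RectRP (W : ℤ × ℕ → ℝ) : Prop where
  zero : W (0, 0) = 0
  even : ∀ (s : ℤ) (t : ℕ), W (-s, t) = W (s, t)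
  growth : ∀ ε : ℝ, 0 < ε → ∃ C : ℝ, ∀ (s : ℤ) (t : ℕ), |W (s, t)| ≤ C + ε * (|(s : ℝ)| + t)
  rp0 : ∀ (S : Finset (ℤ × ℕ)) (a : ℤ × ℕ → ℝ), ∑ x ∈ S, a x = 0 →
    ∑ x ∈ S, ∑ y ∈ S, a x * a y * W (x.1 - y.1, x.2 + y.2) ≤ 0
  rp1 : ∀ (S : Finset (ℤ × ℕ)) (a : ℤ × ℕ → ℝ), ∑ x ∈ S, a x = 0 →
    ∑ x ∈ S, ∑ y ∈ S, a x * a y * W (x.1 - y.1, x.2 + y.2 + 1) ≤ 0
  sym1 : ∀ n : ℕ, W (0, 2 * n) = W (3 * n, n)
  sym2 : ∀ n : ℕ, W (n, n) = W (2 * n, 0)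

/-- The weight `D = (1-λ) + (1 - cos p)`. -/
noncomputable def D (z : ℝ × ℝ) : ℝ := (1 - z.1) + (1 - Real.cos z.2)

/-- The infrared defect `(x²-3u)²/(x²+u)²`, `x = 1-λ`, `u = 2(1-cos p)`. -/
noncomputable def gfun (z : ℝ × ℝ) : ℝ :=
  ((1 - z.1) ^ 2 - 6 * (1 - Real.cos z.2)) ^ 2 / ((1 - z.1) ^ 2 + 2 * (1 - Real.cos z.2)) ^ 2

/-- `m` represents `W`. -/
structure Represents (W : ℤ × ℕ → ℝ) (m : MeasureTheory.Measure (ℝ × ℝ)) : Prop where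
  fin : MeasureTheory.IsFiniteMeasure m
  supp : ∀ᵐ z ∂m, 0 ≤ z.1 ∧ z.1 ≤ 1 ∧ 0 < D z
  eq : ∀ (s : ℤ) (t : ℕ), W (s, t) = 2 * ∫ z, (1 - z.1 ^ t * Real.cos (s * z.2)) / D z ∂m

end Vale.P153.Spec
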